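import Vale.Agent.P011.D4T.H862.Good
import Vale.Agent.P011.D4T.H691.Na
import Vale.Agent.P011.E6.FixB
import Vale.Agent.P011.E6I.H64.Real
import Vale.Agent.P011.D4.Emb
import Vale.Agent.P011.D4.TG7

/-!
Block D4T: the short subgroup lies in the finite residual (from the tori of good type).
-/

open NumberField IsDedekindDomain Topology

namespace Vale.Agent.P011.D4T

open Vale.Agent.P011.Arith Vale.Agent.P011.MPQ Vale.Agent.P011.D4 Vale.Agent.P011.D4.Oct
  Vale.Agent.P011.E6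

theorem index_comap_ne' {G H : Type} [Group G] [Group H] (f : G →* H) {N : Subgroup H}
    (hN : N.index ≠ 0) : (N.comap f).index ≠ 0 := by
  have : N.FiniteIndex := ⟨hN⟩
  rw [Subgroup.index_comap]
  exact (inferInstance : (N.subgroupOf f.range).FiniteIndex).index_ne_zero

/-- A normal subgroup of finite index which contains all tori of one unramified type is
everything. -/
theorem sl1_top {F : Type} [Field F] [NumberField F] {A B D : Fˣ} (hA : Aniso A B) {c : F}
    (hD : (D : F) = 1 + 4 * c) (hc : ∀ w, Ram A B w → AdmC (w.valuation F) c)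
    (hw : ∃ w : Qt A B, w.re = 0 ∧ w * w = (D : F) • (1 : Qt A B))
    (N : Subgroup (SL1 A B)) (hN : N.Normal) (hi : N.index ≠ 0)
    (hT : ∀ w : Qt A B, w.re = 0 → w * w = (D : F) • (1 : Qt A B) → ∀ (x : SL1 A B) (s t : F),
      ((x : (Qt A B)ˣ) : Qt A B) = s • 1 + t • w → x ∈ N) : N = ⊤ := by
  obtain ⟨w, hw0, hww⟩ := hw
  obtain ⟨j, hj0, hj1, hji⟩ := TG.exists_anti hw0
  have hsq : j * j = -nrd j • (1 : Qt A B) := by
    have h1 : star j = -j := by ext <;> simp [hj0]
    have h2 := mul_star_self' j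
    rw [h1, mul_neg] at h2
    rw [neg_smul, ← h2, neg_neg]
  have hbj : -nrd j ≠ 0 := neg_ne_zero.mpr fun h0 => hj1 (hA j h0)
  obtain ⟨Ψ, hΨ, hΨn⟩ := TG.exists_equiv (A := D) (B := Units.mk0 _ hbj) hw0 hj0 hww hsq hji
  refine TG.top_of_equiv Ψ hΨn (fun N' => ∀ x : SL1 D (Units.mk0 _ hbj),
      ((x : (Qt D (Units.mk0 _ hbj))ˣ) : Qt D (Units.mk0 _ hbj)).imJ = 0 →
      ((x : (Qt D (Units.mk0 _ hbj))ˣ) : Qt D (Units.mk0 _ hbj)).imK = 0 → x ∈ N')
    (fun N' hN' hi' hT' => ?_) N hN hi (fun N' hN' x hxJ hxK => ?_)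
  · refine TG.gen_one (c := c) ?_ hD ?_ N' hN' hi' hT'
    · intro x hx
      have h1 := hA (Ψ x) (by rw [hΨn, hx])
      exact (map_eq_zero_iff Ψ Ψ.injective).mp h1
    · intro v hv
      exact hc v fun h => hv (TG.split_of_equiv Ψ hΨn h)
  · obtain ⟨y, hy⟩ := TG.exists_SL1 (Ψ ((x : (Qt D (Units.mk0 _ hbj))ˣ) :
      Qt D (Units.mk0 _ hbj))) (by rw [hΨn]; exact x.2)
    refine hN' x y hy (hT w hw0 hww y
      ((x : (Qt D (Units.mk0 _ hbj))ˣ) : Qt D (Units.mk0 _ hbj)).re
        ((x : (Qt D (Units.mk0 _ hbj))ˣ) : Qt D (Units.mk0 _ hbj)).imI ?_)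
    rw [hy, hΨ, hxJ, hxK, zero_smul, zero_smul, add_zero, add_zero]

section

variable {k L E : Type} [Field k] [NumberField k] [Field L] [NumberField L] [Field E]
  [Algebra k L] [Algebra k E] [Algebra L E]
  [IsScalarTower k L E] [NeZero (2 : E)] {ρ σ : E ≃ₐ[k] E} {ρL : L ≃ₐ[k] L} {α : E}
  {a b c : kˣ} {q : Lˣ} (H : Hy ρ σ ρL α a b c q)

include H

omit [NumberField L] [NeZero (2 : E)] [IsScalarTower k L E] in
/-- The quaternion algebra `Q₁` is a division algebra. -/
theorem Hy.aniso1 : Aniso (up L a) (q * up L b) := by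
  obtain ⟨τ, ha, hb, -⟩ := exists_dfn H.hdiv
  obtain ⟨w, hw⟩ := E6I.exists_real_over (L := L) H.h3 τ
  have hw' : ∀ t : k, w (algebraMap k L t) = τ t := fun t => by
    rw [← hw]; rfl
  have hwa : w (algebraMap k L a) < 0 := by rw [hw']; exact ha
  have hwb : w (algebraMap k L b) < 0 := by rw [hw']; exact hb
  have hq : 0 < w q := (H.hre w hwa).2.2
  intro x hx
  have h1 := congrArg w hx
  have e1 : ((up L a : Lˣ) : L) = algebraMap k L a := rfl
  have e2 : ((q * up L b : Lˣ) : L) = q * algebraMap k L b := rfl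
  simp only [nrd, e1, e2, map_add, map_sub, map_mul, map_pow, map_zero] at h1
  have g1 : 0 ≤ (-w (algebraMap k L a)) * w x.imI ^ 2 := by
    have := neg_pos.2 hwa
    positivity
  have g2 : 0 ≤ w q * (-w (algebraMap k L b)) * w x.imJ ^ 2 := by
    have := neg_pos.2 hwb
    positivity
  have g3 : 0 ≤ w q * (-w (algebraMap k L a)) * (-w (algebraMap k L b)) * w x.imK ^ 2 := by
    have := neg_pos.2 hwb
    have := neg_pos.2 hwa
    positivity
  have g0 : 0 ≤ w x.re ^ 2 := sq_nonneg _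
  have z0 : w x.re ^ 2 = 0 := by nlinarith
  have z1 : (-w (algebraMap k L a)) * w x.imI ^ 2 = 0 := by nlinarith
  have z2 : w q * (-w (algebraMap k L b)) * w x.imJ ^ 2 = 0 := by nlinarith
  have z3 : w q * (-w (algebraMap k L a)) * (-w (algebraMap k L b)) * w x.imK ^ 2 = 0 := by
    nlinarith
  have n1 : -w (algebraMap k L a) ≠ 0 := (neg_pos.2 hwa).ne'
  have n2 : -w (algebraMap k L b) ≠ 0 := (neg_pos.2 hwb).ne'
  have y0 : x.re = 0 := by
    rw [pow_eq_zero_iff two_ne_zero, map_eq_zero] at z0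
    exact z0
  have y1 : x.imI = 0 := by
    have := (mul_eq_zero.1 z1).resolve_left n1
    rw [pow_eq_zero_iff two_ne_zero, map_eq_zero] at this
    exact this
  have y2 : x.imJ = 0 := by
    have := (mul_eq_zero.1 z2).resolve_left (mul_ne_zero hq.ne' n2)
    rw [pow_eq_zero_iff two_ne_zero, map_eq_zero] at this
    exact this
  have y3 : x.imK = 0 := by
    have := (mul_eq_zero.1 z3).resolve_left (mul_ne_zero (mul_ne_zero hq.ne' n1) n2)
    rw [pow_eq_zero_iff two_ne_zero, map_eq_zero] at this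
    exact this
  ext
  · exact y0
  · exact y1
  · exact y2
  · exact y3

omit [NeZero (2 : E)] in
/-- The short subgroup lies in the finite residual. -/
theorem short_mem_of
    (hEx : ∀ x : SL1 (up L a) (q * up L b), ∃ g ∈ GT ρ σ α a b c q,
      ∀ y : OctL E a b c, g y = shortFun ρ (psiL α q ((x : (Qt (up L a) (q * up L b))ˣ) :
        Qt (up L a) (q * up L b))) y)
    (hMul : ∀ x y : Qt (up L a) (q * up L b),
      (psiL α q (x * y) : Qt (up E a) (up E b)) = psiL α q x * psiL α q y)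
    (hTor : ∀ {x : SL1 (up L a) (q * up L b)} {D : k} {w : Qt (up L a) (q * up L b)},
      GoodD a b q D → ¬ IsSquare D → ¬ IsSquare ((a : k) * D) → w.re = 0 →
      w * w = algebraMap k L D • 1 → ∀ {s t : L},
      ((x : (Qt (up L a) (q * up L b))ˣ) : Qt (up L a) (q * up L b)) = s • 1 + t • w →
      ∀ {g : OctL E a b c ≃ₗ[E] OctL E a b c},
      (∀ y : OctL E a b c, g y = shortFun ρ (psiL α q ((x : (Qt (up L a) (q * up L b))ˣ) :
        Qt (up L a) (q * up L b))) y) → g ∈ Rs ρ σ α a b c q)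
    {x : SL1 (up L a) (q * up L b)} {g : OctL E a b c ≃ₗ[E] OctL E a b c}
    (hg : ∀ y : OctL E a b c, g y = shortFun ρ (psiL α q ((x : (Qt (up L a) (q * up L b))ˣ) :
      Qt (up L a) (q * up L b))) y) : g ∈ Rs ρ σ α a b c q := by
  choose S hS1 hS2 using hEx
  have hmul : ∀ x y, S (x * y) = S x * S y := by
    intro x y
    apply LinearEquiv.ext
    intro z
    rw [LinearEquiv.mul_apply, hS2, hS2, hS2, ← Em.shortFun_mul, ← hMul]
    rfl
  let s : SL1 (up L a) (q * up L b) →* GT ρ σ α a b c q :=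
    MonoidHom.mk' (fun x => ⟨S x, hS1 x⟩) fun x y => Subtype.ext (hmul x y)
  have hs : ∀ x, ((s x : GT ρ σ α a b c q) : OctL E a b c ≃ₗ[E] OctL E a b c) = S x :=
    fun _ => rfl
  have hgS : g = S x := by
    apply LinearEquiv.ext
    intro y
    rw [hg, hS2]
  rw [hgS, mem_Rs]
  refine ⟨hS1 x, ?_⟩
  rw [mem_fres]
  intro N hN
  have hfi : N.FiniteIndex := ⟨hN⟩
  have hNc : N.normalCore.index ≠ 0 := (inferInstance : N.normalCore.FiniteIndex).index_ne_zero
  apply Subgroup.normalCore_le N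
  suffices h : N.normalCore.comap s = ⊤ by
    have : x ∈ N.normalCore.comap s := by rw [h]; exact Subgroup.mem_top x
    exact this
  obtain ⟨c', D, hD, h1, h2, h3, h4, h5⟩ := exists_D (k := k) (L := L) H.h3 H.ρ1 (a := a) (b := b)
    (q := q)
  obtain ⟨g1, g2, g3, g4⟩ := good_of H.h3 H.hdiv.aniso h2 h3 fun τ hτ => (h4 τ).2 hτ
  have hns : ¬ IsSquare (D : k) := by
    obtain ⟨τ, ha, hb, -⟩ := exists_dfn H.hdiv
    rintro ⟨r, hr⟩
    have h6 := (h4 τ).2 ha
    rw [hr, map_mul] at h6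
    exact absurd h6 (not_lt.2 (mul_self_nonneg _))
  refine sl1_top (D := up L D) (c := algebraMap k L c') H.aniso1 ?_ h1 g4 _
    (N.normalCore_normal.comap s) (index_comap_ne' s hNc) ?_
  · change algebraMap k L (D : k) = _
    rw [hD, map_add, map_mul, map_one, map_ofNat]
  · intro w hw0 hww y p r hy
    have h8 := hTor (x := y) ⟨g1, g2, g3, g4, fun τ hτ => (h4 τ).1 hτ⟩ hns h5 hw0 hww hy
      (g := S y) (hS2 y)
    obtain ⟨h6, h7⟩ := mem_Rs.1 h8
    exact mem_fres.1 h7 _ hNc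

end

end Vale.Agent.P011.D4T
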