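import Vale.Agent.P011.E6I.Gal
import Vale.Agent.P011.D4.TG7
import Vale.Agent.P011.Two2.Tern
import Vale.Agent.P011.D4T.Defs2

/-!
Block D4T: non-squares stay non-squares in an extension of odd local degree; good parameters.
-/

open NumberField IsDedekindDomain

namespace Vale.Agent.P011.D4T

open Vale.Agent.P011.Arith Vale.Agent.P011.MPQ Vale.Agent.P011.D4

section near

variable {F : Type} [Field F] {w : Valuation F Z0} {g : Z0}

theorem near_mul (hg : g ≤ 1) {x y : F} (hx : w (x - 1) < g) (hy : w (y - 1) < g) :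
    w (x * y - 1) < g := by
  have e : x * y - 1 = (x - 1) + (y - 1) + (x - 1) * (y - 1) := by ring
  rw [e]
  refine w.map_add_lt (w.map_add_lt hx hy) ?_
  rw [map_mul]
  exact (mul_le_of_le_one_left' (hx.le.trans hg)).trans_lt hy

theorem near_inv (hg : g ≤ 1) {x : F} (hx : w (x - 1) < g) : w (x⁻¹ - 1) < g := by
  have h1 : w x = 1 := by
    have := w.map_one_add_of_lt (x := x - 1) (hx.trans_le hg)
    rwa [add_sub_cancel] at this
  have hx0 : x ≠ 0 := by
    rintro rfl
    rw [map_zero] at h1
    exact zero_ne_one h1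
  have e : x⁻¹ - 1 = -((x - 1) * x⁻¹) := by field_simp; ring
  rw [e, Valuation.map_neg, map_mul, map_inv₀, h1, inv_one, mul_one]
  exact hx

end near

section up

variable {k L : Type} [Field k] [NumberField k] [Field L] [NumberField L] [Algebra k L]

theorem near_down {v : HeightOneSpectrum (𝓞 k)} {w : HeightOneSpectrum (𝓞 L)}
    (h : w.asIdeal.comap (algebraMap (𝓞 k) (𝓞 L)) = v.asIdeal) {x : k}
    (hx : w.valuation L (algebraMap k L x - 1) < w.valuation L 4) :
    v.valuation k (x - 1) < v.valuation k 4 := by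
  obtain ⟨e, he, hval⟩ := val_above (E := L) h
  have e1 : algebraMap k L x - 1 = algebraMap k L (x - 1) := by rw [map_sub, map_one]
  have e2 : (4 : L) = algebraMap k L 4 := (map_ofNat _ 4).symm
  rw [e1, e2, hval, hval] at hx
  by_contra hcon
  exact absurd hx (not_lt.mpr (pow_le_pow_left' (not_lt.mp hcon) e))

/-- Elements which are not squares at a finite place are not squares at the places above it, in a
cyclic cubic extension. -/
theorem notMem_up (h3 : Module.finrank k L = 3) {ρ : L ≃ₐ[k] L} (hρ : ρ ≠ 1)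
    {v : HeightOneSpectrum (𝓞 k)} {w : HeightOneSpectrum (𝓞 L)}
    (h : w.asIdeal.comap (algebraMap (𝓞 k) (𝓞 L)) = v.asIdeal) {D : kˣ}
    (hD : D ∉ LS (v.valuation k)) : up L D ∉ LS (w.valuation L) := by
  classical
  rintro ⟨y, hy⟩
  apply hD
  have hρ3 : ∀ t, ρ (ρ (ρ t)) = t := E6I.rho3 h3 hρ
  have h4 : w.valuation L 4 ≤ 1 := val_four_le _
  -- the norm is in the ground field
  have hN : ∀ t : L, ∃ n : k, algebraMap k L n = t * ρ t * ρ (ρ t) := fun t => by
    refine E6I.rho_fix h3 hρ ?_
    rw [map_mul, map_mul, hρ3]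
    ring
  have hDL : ((up L D : Lˣ) : L) = algebraMap k L D := rfl
  obtain ⟨w1, hw1, -⟩ := exists_conj ρ w
  obtain ⟨w2, hw2, -⟩ := exists_conj ρ w1
  -- valuations determine the prime
  have hinj : ∀ u u' : HeightOneSpectrum (𝓞 L), (∀ z, u.valuation L z = u'.valuation L z) →
      u = u' := by
    intro u u' huu
    by_contra hne
    obtain ⟨x, hx1, hx2⟩ := exists_lt_one_ge_one hne
    have h5 : u.valuation L (algebraMap (𝓞 L) L x) < 1 :=
      (u.valuation_lt_one_iff_mem (K := L) x).mpr hx1
    rw [huu] at h5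
    exact hx2 ((u'.valuation_lt_one_iff_mem (K := L) x).mp h5)
  by_cases hc : w1 = w
  · -- one place above
    have hinv : ∀ z, w.valuation L (ρ z) = w.valuation L z := fun z => by
      rw [← hw1 z, hc]
    obtain ⟨n, hn⟩ := hN y
    have hy0 : (y : L) ≠ 0 := y.ne_zero
    have hn0 : n ≠ 0 := by
      rintro rfl
      rw [map_zero] at hn
      have h5 : (y : L) * ρ y * ρ (ρ y) ≠ 0 :=
        mul_ne_zero (mul_ne_zero hy0 ((map_ne_zero ρ).mpr hy0))
          ((map_ne_zero ρ).mpr ((map_ne_zero ρ).mpr hy0))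
      exact h5 hn.symm
    set x : L := algebraMap k L D / (y : L) ^ 2 with hx
    have hx1 : w.valuation L (x - 1) < w.valuation L 4 := hy
    have hx2 : w.valuation L (ρ x - 1) < w.valuation L 4 := by
      have e : ρ x - 1 = ρ (x - 1) := by rw [map_sub, map_one]
      rw [e, hinv]
      exact hx1
    have hx3 : w.valuation L (ρ (ρ x) - 1) < w.valuation L 4 := by
      have e : ρ (ρ x) - 1 = ρ (ρ (x - 1)) := by
        rw [map_sub, map_sub, map_one, map_one]
      rw [e, hinv, hinv]
      exact hx1
    have hx4 := near_mul h4 (near_mul h4 hx1 hx2) hx3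
    have e1 : x * ρ x * ρ (ρ x) = algebraMap k L ((D : k) ^ 3 / n ^ 2) := by
      rw [hx, map_div₀, map_div₀, map_div₀, map_pow, map_pow, ρ.commutes, ρ.commutes, map_pow,
        map_pow, hn]
      have h5 : ρ (y : L) ≠ 0 := (map_ne_zero ρ).mpr hy0
      have h6 : ρ (ρ (y : L)) ≠ 0 := (map_ne_zero ρ).mpr h5
      field_simp
    rw [e1] at hx4
    have h7 := near_down h hx4
    have h8 : D ^ 3 ∈ LS (v.valuation k) := by
      refine ⟨Units.mk0 n hn0, ?_⟩
      rw [Units.val_pow_eq_pow_val, Units.val_mk0]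
      exact h7
    have h9 : D ^ 2 ∈ LS (v.valuation k) := by
      refine ⟨D, ?_⟩
      rw [Units.val_pow_eq_pow_val, div_self (pow_ne_zero 2 D.ne_zero), sub_self, map_zero]
      exact zero_lt_iff.mpr (val_four_ne _)
    have h10 : D = D ^ 3 * (D ^ 2)⁻¹ := by
      rw [pow_succ D 2, mul_comm (D ^ 2), mul_inv_cancel_right]
    rw [h10]
    exact mul_mem h8 (inv_mem h9)
  · -- three places above
    have h12 : w1 ≠ w2 := by
      intro h5
      apply hc
      refine hinj _ _ fun z => ?_
      have h6 := hw2 z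
      rw [← h5] at h6
      rw [← h6, hw1]
    have h02 : w ≠ w2 := by
      intro h5
      apply hc
      have h6 : ∀ z, w.valuation L (ρ z) = w1.valuation L z := fun z => by
        have := hw2 z
        rwa [← h5] at this
      have h7 : ∀ z, w.valuation L (ρ (ρ z)) = w.valuation L z := fun z => by rw [h6, hw1]
      refine hinj _ _ fun z => ?_
      rw [← h6, ← h7 (ρ z), hρ3]
    have hv1 : ∀ z, w.valuation L (ρ (ρ z)) = w1.valuation L z := fun z => by
      rw [← hw1, hρ3]
    have hv2 : ∀ z, w.valuation L (ρ z) = w2.valuation L z := fun z => by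
      rw [← hw1, ← hw2, hρ3]
    have h4' : ∀ u : HeightOneSpectrum (𝓞 L), u.valuation L 4 ≠ 0 := fun u => val_four_ne _
    obtain ⟨t, ht, -⟩ := approxVal (F := L) {w, w1, w2} (fun u => if u = w then (y : L) else 1)
      (fun u => if u = w then u.valuation L (4 * y) else w.valuation L 4) (fun u _ => by
        split_ifs
        · exact (Valuation.ne_zero_iff _).mpr (mul_ne_zero (by norm_num) y.ne_zero)
        · exact h4' w) (fun _ => 0) (ε := 1) one_pos
    have ht0 := ht w (by simp)
    have ht1 := ht w1 (by simp)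
    have ht2 := ht w2 (by simp)
    rw [if_pos rfl, if_pos rfl] at ht0
    rw [if_neg hc, if_neg hc] at ht1
    rw [if_neg h02.symm, if_neg h02.symm] at ht2
    have hy0 : (y : L) ≠ 0 := y.ne_zero
    have hyv : w.valuation L (y : L) ≠ 0 := (Valuation.ne_zero_iff _).mpr hy0
    have hr0 : w.valuation L (t / y - 1) < w.valuation L 4 := by
      rw [div_sub_one hy0, map_div₀, div_lt_iff₀ (zero_lt_iff.mpr hyv), ← map_mul]
      exact ht0
    have hr1 : w.valuation L (ρ (ρ t) - 1) < w.valuation L 4 := by
      have e : ρ (ρ t) - 1 = ρ (ρ (t - 1)) := by rw [map_sub, map_sub, map_one, map_one]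
      rw [e, hv1]
      exact ht1
    have hr2 : w.valuation L (ρ t - 1) < w.valuation L 4 := by
      have e : ρ t - 1 = ρ (t - 1) := by rw [map_sub, map_one]
      rw [e, hv2]
      exact ht2
    have hr := near_mul h4 (near_mul h4 hr0 hr2) hr1
    obtain ⟨n, hn⟩ := hN t
    have e1 : t / y * ρ t * ρ (ρ t) = algebraMap k L n / y := by
      rw [hn]; field_simp
    rw [e1] at hr
    have hri := near_inv h4 hr
    have hfin := near_mul h4 (near_mul h4 hy hri) hri
    have hn0 : n ≠ 0 := by
      rintro rfl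
      rw [map_zero, zero_div, zero_sub, Valuation.map_neg, map_one] at hr
      exact absurd hr (not_lt.mpr h4)
    have hnL : algebraMap k L n ≠ 0 := (map_ne_zero _).mpr hn0
    have e2 : ((up L D : Lˣ) : L) / (y : L) ^ 2 * (algebraMap k L n / y)⁻¹ *
        (algebraMap k L n / y)⁻¹ = algebraMap k L ((D : k) / n ^ 2) := by
      rw [hDL, map_div₀, map_pow]
      field_simp
    rw [e2] at hfin
    refine ⟨Units.mk0 n hn0, ?_⟩
    rw [Units.val_mk0]
    exact near_down h hfin

end up

end Vale.Agent.P011.D4T
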